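import Vale.Agent.Lib.P158.Main

namespace Vale.Agent.Results.P158.RayStripH

open MeasureTheory ProbabilityTheory Vale.Agent.Lib.P158

/-- First-passage percolation on the square lattice with i.i.d. edge weights of common law `G`
on `[0, ∞)`, where `G` is not a point mass (in particular: every atomless `G`; no moment
assumption).  Almost surely, no geodesic ray is contained in a horizontal strip
`ℤ × [-w, w]` of finite width. -/
theorem result {Ω : Type*} [MeasurableSpace Ω] (P : Measure Ω) [IsProbabilityMeasure P]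
    (G : Measure ℝ) [IsProbabilityMeasure G] (hG0 : G (Set.Iio 0) = 0) (hG : ∀ x, G {x} ≠ 1)
    (τ : Z2.edgeSet → Ω → ℝ) (hm : ∀ e, Measurable (τ e)) (hlaw : ∀ e, P.map (τ e) = G)
    (hind : iIndepFun τ P) :
    ∀ᵐ ω ∂P, ∀ v : ℕ → ℤ × ℤ, IsGeodesicRay (fun e => τ e ω) v →
      ∀ w : ℕ, ¬ ∀ i, |(v i).2| ≤ w :=
  no_ray_in_horizontal_strip hG0 hG hm hlaw hind

end Vale.Agent.Results.P158.RayStripH
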